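import Crest.Agent.N250.Re.Ring

/-!
# Row 250, realisation, part 4 (helper86): pointwise identities on the track
-/

set_option autoImplicit false
open MeasureTheory Set Filter Topology Function
open scoped ContDiff InnerProductSpace
open Crest.GeometryTopology.MCF

noncomputable section

namespace Crest.Agent.N250


namespace Mv

variable {F : Mv} {p : ST} {f g : ST → ℝ}

theorem gam_apply (f g : ST → ℝ) (p : ST) : F.gam f g p = ∑ a, F.D a f p * F.D a g p :=
  Finset.sum_apply _ _ _

theorem lap_apply (f : ST → ℝ) (p : ST) : F.lap f p = ∑ a, F.D a (F.D a f) p :=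
  Finset.sum_apply _ _ _



theorem H_apply (p : ST) : F.H p = ∑ a, F.A a a p := Finset.sum_apply _ _ _

theorem A2_apply (p : ST) : F.A2 p = ∑ a, ∑ b, F.A a b p * F.A a b p := by
  simp only [A2, Finset.sum_apply, Pi.mul_apply]


theorem gam_self_nonneg (f : ST → ℝ) (p : ST) : 0 ≤ F.gam f f p := by
  rw [gam_apply]; exact Finset.sum_nonneg fun _ _ => mul_self_nonneg _


theorem gam_sq_le (f g : ST → ℝ) (p : ST) : F.gam f g p ^ 2 ≤ F.gam f f p * F.gam g g p := by
  simpa only [gam_apply, sq] using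
    Finset.sum_mul_sq_le_sq_mul_sq Finset.univ (fun a => F.D a f p) fun a => F.D a g p

theorem A2_nonneg (p : ST) : 0 ≤ F.A2 p := by
  rw [A2_apply]
  exact Finset.sum_nonneg fun _ _ => Finset.sum_nonneg fun _ _ => mul_self_nonneg _


theorem eventually_D_congr (e : f =ᶠ[𝓝[F.M] p] g) (a : Fin 3) :
    F.D a f =ᶠ[𝓝[F.M] p] F.D a g := by
  filter_upwards [eventually_eventually_nhdsWithin.2 e, self_mem_nhdsWithin] with q hq hM
    using D_congr hM hq a

theorem lap_congr (hp : p ∈ F.M) (e : f =ᶠ[𝓝[F.M] p] g) : F.lap f p = F.lap g p := by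
  simp only [lap_apply, D_congr hp (eventually_D_congr e _)]



theorem ev_of_eqOn (e : ∀ q ∈ F.M, f q = g q) : f =ᶠ[𝓝[F.M] p] g :=
  eventually_of_mem self_mem_nhdsWithin e

theorem DL_congr (e : f =ᶠ[𝓝[F.M] p] g) (l : List (Fin 3)) : F.DL l f =ᶠ[𝓝[F.M] p] F.DL l g := by
  induction l with
  | nil => exact e
  | cons a l ih => exact eventually_D_congr ih a

namespace Reg

variable (h : F.Reg) (hp : p ∈ F.M)
include h




include hp

/-! ### first order rules -/

theorem D_add (hf : F.Sm f) (hg : F.Sm g) (a : Fin 3) :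
    F.D a (f + g) p = F.D a f p + F.D a g p :=
  h.td_add hp (hf.diffW hp) (hg.diffW hp) (h.tg_PL hp _)

theorem D_mul (hf : F.Sm f) (hg : F.Sm g) (a : Fin 3) :
    F.D a (f * g) p = f p * F.D a g p + F.D a f p * g p :=
  h.td_mul hp (hf.diffW hp) (hg.diffW hp) (h.tg_PL hp _)

theorem D_const (c : ℝ) (a : Fin 3) : F.D a (fun _ => c) p = 0 := h.td_const hp c (h.tg_PL hp _)


theorem D_comp {ψ : ℝ → ℝ} {d : ℝ} (hf : F.Sm f) (hψ : HasDerivAt ψ d (f p)) (a : Fin 3) :
    F.D a (fun q => ψ (f q)) p = d * F.D a f p := h.td_comp1 hp (hf.diffW hp) hψ (h.tg_PL hp _)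

theorem D_const_mul (c : ℝ) (hf : F.Sm f) (a : Fin 3) :
    F.D a (fun q => c * f q) p = c * F.D a f p :=
  h.D_comp hp (ψ := fun s => c * s) hf (by simpa using (hasDerivAt_id (f p)).const_mul c) a

theorem D_neg (hf : F.Sm f) (a : Fin 3) : F.D a (-f) p = -F.D a f p := by
  exact (h.D_comp hp (ψ := fun s => -s) hf (hasDerivAt_neg (f p)) a).trans (neg_one_mul _)

theorem D_sub (hf : F.Sm f) (hg : F.Sm g) (a : Fin 3) :
    F.D a (f - g) p = F.D a f p - F.D a g p := by
  rw [sub_eq_add_neg, h.D_add hp hf hg.neg, h.D_neg hp hg, sub_eq_add_neg]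

theorem D_sum {κ : Type} (s : Finset κ) {f : κ → ST → ℝ} (hf : ∀ i, F.Sm (f i)) (a : Fin 3) :
    F.D a (∑ i ∈ s, f i) p = ∑ i ∈ s, F.D a (f i) p := by
  simpa only [mk_sum, h.mov_D, ev_mk, Finset.sum_apply] using
    congrArg (ev hp) (h.isHyp.toIsDS.D_sum a s fun i => mk' (f i) (hf i))

theorem D_amb (hg : DifferentiableAt ℝ g p) (a : Fin 3) :
    F.D a g p = fderiv ℝ g p (F.PL p (ee a), 0) := h.td_amb hp hg (h.tg_PL hp _)












omit h hp in
/-- every tangent vector: spatial part plus normal motion -/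
theorem td_split (f : ST → ℝ) {w : ST} (hw : F.Tg p w) :
    F.td f p w = ∑ a, w.1 a * F.D a f p + w.2 * F.Dt f p := by
  have : w = (F.PL p w.1, 0) + w.2 • (F.V p • F.n p, 1) := by
    ext1
    · simp only [PL, Prod.fst_add, Prod.smul_fst, smul_smul]
      rw [show ⟪F.n p, w.1⟫_ℝ = F.V p * w.2 from hw, mul_comm, sub_add_cancel]
    · simp
  conv_lhs => rw [this, map_add, map_smul, td_PL]
  rfl

/-! ### algebra of the projection and of the second fundamental form -/



theorem n_A (b : Fin 3) : ∑ a, F.nu a p * F.A a b p = 0 := h.n_D hp _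

theorem A_n (a : Fin 3) : ∑ b, F.nu b p * F.A a b p = 0 := by
  simp only [h.A_symm hp a, h.n_A hp]



theorem DD_eq (hf : F.Sm f) (a b : Fin 3) : F.D a (F.D b f) p =
    F.pre.hess f a b p - F.nu b p * ∑ c, F.A a c p * F.D c f p := by
  simpa only [map_sum, map_mul, map_sub, h.mov_hess, h.mov_D, h.mov_n, h.mov_B, ev_mk] using
    congrArg (ev hp) (h.isHyp.DD (mk' f hf) a b)







/-! ### second order rules -/





/-- chain rule for second derivatives -/
theorem DD_comp {ψ : ℝ → ℝ} (hf : F.Sm f) (hψ : ContDiffAt ℝ 2 ψ (f p)) (a b : Fin 3) :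
    F.D a (F.D b fun q => ψ (f q)) p = deriv ψ (f p) * F.D a (F.D b f) p
      + deriv (deriv ψ) (f p) * (F.D a f p * F.D b f p) := by
  have h1 : ∀ᶠ s in 𝓝 (f p), DifferentiableAt ℝ ψ s :=
    (hψ.eventually (by simp)).mono fun s hs => hs.differentiableAt (by simp)
  have h2 : DifferentiableAt ℝ (deriv ψ) (f p) :=
    (hψ.derivWithin (m := 1) (by norm_num)).differentiableAt (by simp)
  have e : (F.D b fun q => ψ (f q)) =ᶠ[𝓝[F.M] p] (fun q => deriv ψ (f q)) * F.D b f := by
    filter_upwards [(hf p hp).continuousWithinAt.eventually h1, self_mem_nhdsWithin] with q hq hM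
      using h.D_comp hM hf hq.hasDerivAt b
  rw [D_congr hp e, D_apply, h.td_mul (f := fun q => deriv ψ (f q)) hp
    (h2.comp_differentiableWithinAt p (hf.diffW hp))
    ((h.sm_D hf b).diffW hp) (h.tg_PL hp _), ← D_apply, ← D_apply, h.D_comp hp hf h2.hasDerivAt]
  ring

theorem lap_comp {ψ : ℝ → ℝ} (hf : F.Sm f) (hψ : ContDiffAt ℝ 2 ψ (f p)) :
    F.lap (fun q => ψ (f q)) p = deriv ψ (f p) * F.lap f p
      + deriv (deriv ψ) (f p) * F.gam f f p := by
  simp only [lap_apply, gam_apply, h.DD_comp hp hf hψ, Finset.sum_add_distrib, Finset.mul_sum]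











/-! ### evolution equations for a general normal speed -/




end Reg

/-! ### the mean curvature flow -/

namespace IsMCF

variable (h : F.IsMCF) (hp : p ∈ F.M)
include h hp






end IsMCF

end Mv

end Crest.Agent.N250

end
namespace Crest.Agent.N250.Mov
end Crest.Agent.N250.Mov
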